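import Mathlib

/-! P031: cluster points of `V(cx)/V(x)`, abstract form. -/

namespace Vale.P031

open Filter Topology

/-- iterating a lower bound. -/
theorem iter_ge (V : ℝ → ℝ) (c a x0 : ℝ) (hc : 1 < c) (ha : 0 ≤ a) (hx0 : 1 ≤ x0)
    (h : ∀ x, x0 ≤ x → a * V x ≤ V (c * x)) : ∀ k : ℕ, a ^ k * V x0 ≤ V (c ^ k * x0) := by
  intro k
  induction k with
  | zero => simp
  | succ k ih =>
    have h1 : x0 ≤ c ^ k * x0 := by
      have : 1 ≤ c ^ k := one_le_pow₀ hc.le
      nlinarith
    have h2 := h _ h1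
    have h3 := mul_le_mul_of_nonneg_left ih ha
    have e1 : c * (c ^ k * x0) = c ^ (k + 1) * x0 := by ring
    have e2 : a * (a ^ k * V x0) = a ^ (k + 1) * V x0 := by ring
    rw [e1] at h2
    rw [e2] at h3
    exact h3.trans h2

/-- iterating an upper bound. -/
theorem iter_le (V : ℝ → ℝ) (c a x0 : ℝ) (hc : 1 < c) (ha : 0 ≤ a) (hx0 : 1 ≤ x0)
    (h : ∀ x, x0 ≤ x → V (c * x) ≤ a * V x) : ∀ k : ℕ, V (c ^ k * x0) ≤ a ^ k * V x0 := by
  intro k
  induction k with
  | zero => simp
  | succ k ih =>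
    have h1 : x0 ≤ c ^ k * x0 := by
      have : 1 ≤ c ^ k := one_le_pow₀ hc.le
      nlinarith
    have h2 := h _ h1
    have h3 := mul_le_mul_of_nonneg_left ih ha
    have e1 : c * (c ^ k * x0) = c ^ (k + 1) * x0 := by ring
    have e2 : a * (a ^ k * V x0) = a ^ (k + 1) * V x0 := by ring
    rw [e1] at h2
    rw [e2] at h3
    exact h2.trans h3

/-- the ratio cannot stay above `c + δ`. -/
theorem not_above (V : ℝ → ℝ) (c δ x0 : ℝ) (hc : 1 < c) (hδ : 0 < δ) (hx0 : 1 ≤ x0)
    (h1 : ∀ x, 1 ≤ x → 1 ≤ V x) (hle : ∀ x, 1 ≤ x → V x ≤ x)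
    (h : ∀ x, x0 ≤ x → (c + δ) * V x ≤ V (c * x)) : False := by
  have h2 := iter_ge V c (c + δ) x0 hc (by linarith) hx0 h
  have h3 : ∀ k : ℕ, ((c + δ) / c) ^ k ≤ x0 := by
    intro k
    have hck : (0 : ℝ) < c ^ k := by positivity
    have h4 : (1 : ℝ) ≤ c ^ k := one_le_pow₀ hc.le
    have h5 := hle (c ^ k * x0) (by nlinarith)
    have h6 := h2 k
    have h7 := h1 x0 hx0
    have h8 : (0 : ℝ) < (c + δ) ^ k := by positivity
    rw [div_pow, div_le_iff₀ hck]
    nlinarith
  have h9 : 1 < (c + δ) / c := by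
    rw [lt_div_iff₀ (by linarith)]; linarith
  obtain ⟨k, hk⟩ := pow_unbounded_of_one_lt x0 h9
  exact absurd (h3 k) (not_le.2 hk)

/-- the ratio cannot stay below `a < c`. -/
theorem not_below (V : ℝ → ℝ) (c a x0 : ℝ) (hc : 1 < c) (ha : 0 < a) (hac : a < c)
    (hx0 : 1 ≤ x0)
    (hlow : ∀ x, 1 < x → (x - 1) * Real.log 2 - Real.log (x + 2) ≤ V x * Real.log x)
    (h : ∀ x, x0 ≤ x → V (c * x) ≤ a * V x) : False := by
  have h2 := iter_le V c a x0 hc ha.le hx0 h
  have hc0 : 0 < c := by linarith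
  have hx00 : 0 < x0 := by linarith
  -- sequence of points
  have hy : Tendsto (fun k : ℕ => c ^ k * x0) atTop atTop :=
    (tendsto_pow_atTop_atTop_of_one_lt hc).atTop_mul_const hx00
  -- the left side divided by the point
  have hL : Tendsto (fun y : ℝ => ((y - 1) * Real.log 2 - Real.log (y + 2)) / y) atTop
      (𝓝 (Real.log 2)) := by
    have e1 : Tendsto (fun y : ℝ => (1 - 1 / y) * Real.log 2 -
        (Real.log (y + 2) / (y + 2)) * ((y + 2) / y)) atTop
        (𝓝 ((1 - 0) * Real.log 2 - 0 * 1)) := by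
      have t0 : Tendsto (fun y : ℝ => 1 / y) atTop (𝓝 0) := by
        simpa using tendsto_inv_atTop_zero (𝕜 := ℝ)
      have t1 : Tendsto (fun y : ℝ => Real.log (y + 2) / (y + 2)) atTop (𝓝 0) := by
        have := (Real.isLittleO_log_id_atTop).tendsto_div_nhds_zero
        exact this.comp (tendsto_atTop_add_const_right _ _ tendsto_id)
      have t2 : Tendsto (fun y : ℝ => (y + 2) / y) atTop (𝓝 1) := by
        have t3 : Tendsto (fun y : ℝ => 1 + 2 * (1 / y)) atTop (𝓝 (1 + 2 * 0)) :=
          (t0.const_mul 2).const_add 1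
        rw [mul_zero, add_zero] at t3
        refine t3.congr' ?_
        filter_upwards [eventually_gt_atTop (0 : ℝ)] with y hy
        field_simp
      exact ((tendsto_const_nhds.sub t0).mul_const _).sub (t1.mul t2)
    rw [sub_zero, one_mul, zero_mul, sub_zero] at e1
    refine e1.congr' ?_
    filter_upwards [eventually_gt_atTop (0 : ℝ)] with y hy
    have : y + 2 ≠ 0 := by linarith
    field_simp
  have hL2 := hL.comp hy
  -- the right side divided by the point
  have hR : Tendsto (fun k : ℕ => (a ^ k * V x0) * Real.log (c ^ k * x0) / (c ^ k * x0)) atTop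
      (𝓝 0) := by
    have hr : |a / c| < 1 := by
      rw [abs_of_pos (by positivity), div_lt_one hc0]; exact hac
    have t1 : Tendsto (fun k : ℕ => (k : ℝ) * (a / c) ^ k) atTop (𝓝 0) :=
      tendsto_self_mul_const_pow_of_abs_lt_one hr
    have t2 : Tendsto (fun k : ℕ => (a / c) ^ k) atTop (𝓝 0) :=
      tendsto_pow_atTop_nhds_zero_of_abs_lt_one hr
    have t3 : Tendsto (fun k : ℕ => V x0 / x0 * Real.log c * ((k : ℝ) * (a / c) ^ k) +
        V x0 / x0 * Real.log x0 * (a / c) ^ k) atTop
        (𝓝 (V x0 / x0 * Real.log c * 0 + V x0 / x0 * Real.log x0 * 0)) :=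
      (t1.const_mul _).add (t2.const_mul _)
    rw [mul_zero, mul_zero, add_zero] at t3
    refine t3.congr (fun k => ?_)
    rw [Real.log_mul (by positivity) (by positivity), Real.log_pow, div_pow]
    have : c ^ k ≠ 0 := by positivity
    field_simp
  have hle : ∀ᶠ k : ℕ in atTop,
      ((c ^ k * x0 - 1) * Real.log 2 - Real.log (c ^ k * x0 + 2)) / (c ^ k * x0) ≤
      (a ^ k * V x0) * Real.log (c ^ k * x0) / (c ^ k * x0) := by
    filter_upwards [hy.eventually_gt_atTop 1] with k hk
    have hpos : 0 < c ^ k * x0 := by linarith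
    refine div_le_div_of_nonneg_right ?_ hpos.le
    have h3 := hlow _ hk
    have h4 : 0 ≤ Real.log (c ^ k * x0) := Real.log_nonneg hk.le
    exact h3.trans (mul_le_mul_of_nonneg_right (h2 k) h4)
  have h5 := le_of_tendsto_of_tendsto hL2 hR hle
  have h6 : 0 < Real.log 2 := Real.log_pos (by norm_num)
  linarith

/-- the main theorem, abstract form. -/
theorem cluster (V : ℝ → ℝ) (c : ℝ) (hc : 1 < c)
    (h1 : ∀ x, 1 ≤ x → 1 ≤ V x) (hle : ∀ x, 1 ≤ x → V x ≤ x) (hmono : Monotone V)
    (hadd : ∀ x s, 0 ≤ x → 0 ≤ s → V (x + s) ≤ V x + s + 1) (htop : Tendsto V atTop atTop)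
    (hlow : ∀ x, 1 < x → (x - 1) * Real.log 2 - Real.log (x + 2) ≤ V x * Real.log x) :
    MapClusterPt c atTop (fun x : ℝ => V (c * x) / V x) := by
  rw [mapClusterPt_iff_frequently]
  intro s hs
  by_contra hcon
  rw [not_frequently] at hcon
  obtain ⟨δ0, hδ0, hball⟩ := Metric.mem_nhds_iff.1 hs
  set δ := min δ0 (c / 2) with hδ
  have hδpos : 0 < δ := lt_min hδ0 (by linarith)
  have hδ1 : δ ≤ δ0 := min_le_left _ _
  have hδ2 : δ ≤ c / 2 := min_le_right _ _
  -- a threshold
  obtain ⟨X, hX⟩ := eventually_atTop.1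
    (hcon.and ((htop.eventually_gt_atTop ((c + 1) / (2 * δ))).and (eventually_ge_atTop 1)))
  have hX1 : ∀ x, X ≤ x → 1 ≤ x := fun x hx => (hX x hx).2.2
  have hVpos : ∀ x, X ≤ x → 0 < V x := fun x hx => lt_of_lt_of_le one_pos (h1 x (hX1 x hx))
  have hdich : ∀ x, X ≤ x → V (c * x) / V x ≤ c - δ ∨ c + δ ≤ V (c * x) / V x := by
    intro x hx
    by_contra hno
    push Not at hno
    refine (hX x hx).1 (hball ?_)
    rw [Metric.mem_ball, Real.dist_eq, abs_lt]
    constructor <;> linarith [hno.1, hno.2]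
  by_cases hall : ∀ x, X ≤ x → c + δ ≤ V (c * x) / V x
  · refine not_above V c δ (max X 1) hc hδpos (le_max_right _ _) h1 hle (fun x hx => ?_)
    have hxX : X ≤ x := (le_max_left _ _).trans hx
    exact (le_div_iff₀ (hVpos x hxX)).1 (hall x hxX)
  · push Not at hall
    obtain ⟨x1, hx1, hx1'⟩ := hall
    have hbase : V (c * x1) / V x1 ≤ c - δ := by
      rcases hdich x1 hx1 with h | h
      · exact h
      · exact absurd h (not_le.2 hx1')
    have hstep : ∀ x t, X ≤ x → 0 ≤ t → t ≤ 1 → V (c * x) / V x ≤ c - δ →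
        V (c * (x + t)) / V (x + t) ≤ c - δ := by
      intro x t hx ht0 ht1 hR
      rcases hdich (x + t) (by linarith) with h | h
      · exact h
      · exfalso
        have hx1 : 1 ≤ x := hX1 x hx
        have hV := hVpos x hx
        have hV' := hVpos (x + t) (by linarith)
        have hm : V x ≤ V (x + t) := hmono (by linarith)
        have ha : V (c * (x + t)) ≤ V (c * x) + c * t + 1 := by
          rw [mul_add]
          exact hadd _ _ (by positivity) (by positivity)
        have hb : (c + δ) * V (x + t) ≤ V (c * (x + t)) := (le_div_iff₀ hV').1 h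
        have hd : V (c * x) ≤ (c - δ) * V x := (div_le_iff₀ hV).1 hR
        have he : (c + 1) / (2 * δ) < V x := (hX x hx).2.1
        rw [div_lt_iff₀ (by positivity)] at he
        have hf : c * t ≤ c := by nlinarith
        nlinarith
    have hind : ∀ m : ℕ, ∀ t : ℝ, 0 ≤ t → t ≤ (m : ℝ) → V (c * (x1 + t)) / V (x1 + t) ≤ c - δ := by
      intro m
      induction m with
      | zero =>
        intro t ht0 ht1
        have : t = 0 := le_antisymm (by simpa using ht1) ht0
        rw [this, add_zero]; exact hbase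
      | succ m ih =>
        intro t ht0 ht1
        by_cases htm : t ≤ (m : ℝ)
        · exact ih t ht0 htm
        · push Not at htm
          have hm0 : (0 : ℝ) ≤ (m : ℝ) := Nat.cast_nonneg m
          have := hstep (x1 + m) (t - m) (by linarith) (by linarith) (by push_cast at ht1; linarith)
            (ih m hm0 le_rfl)
          have e : x1 + m + (t - m) = x1 + t := by ring
          rwa [e] at this
    have hx11 : 1 ≤ x1 := hX1 x1 hx1
    refine not_below V c (c - δ) x1 hc (by linarith) (by linarith) hx11 hlow (fun x hx => ?_)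
    have hVx := hVpos x (hx1.trans hx)
    obtain ⟨m, hm⟩ := exists_nat_ge (x - x1)
    have := hind m (x - x1) (by linarith) hm
    have e : x1 + (x - x1) = x := by ring
    rw [e] at this
    exact (div_le_iff₀ hVx).1 this

end Vale.P031
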