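import Mathlib

/-! P031: from two multiplicatively independent values to all values. -/

namespace Vale.P031

open Filter Topology

/-- the additive group of all `t` with `f(e^t x)/f(x) → e^t`. -/
def grp (f : ℝ → ℝ) (hf : ∀ᶠ x in atTop, 0 < f x) : AddSubgroup ℝ where
  carrier := {t | Tendsto (fun x => f (Real.exp t * x) / f x) atTop (𝓝 (Real.exp t))}
  zero_mem' := by
    show Tendsto (fun x => f (Real.exp 0 * x) / f x) atTop (𝓝 (Real.exp 0))
    rw [Real.exp_zero]
    refine tendsto_const_nhds.congr' ?_
    filter_upwards [hf] with x hx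
    rw [one_mul, div_self hx.ne']
  add_mem' := by
    intro s t hs ht
    show Tendsto (fun x => f (Real.exp (s + t) * x) / f x) atTop (𝓝 (Real.exp (s + t)))
    have hm : Tendsto (fun x : ℝ => Real.exp t * x) atTop atTop :=
      tendsto_id.const_mul_atTop (Real.exp_pos t)
    have h1 : Tendsto (fun x => f (Real.exp s * (Real.exp t * x)) / f (Real.exp t * x)) atTop
        (𝓝 (Real.exp s)) := Tendsto.comp hs hm
    have h2 := h1.mul ht
    rw [← Real.exp_add] at h2
    refine h2.congr' ?_
    filter_upwards [hf, hm.eventually hf] with x hx hx2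
    have e : Real.exp s * (Real.exp t * x) = Real.exp (s + t) * x := by
      rw [Real.exp_add]; ring
    rw [e]
    exact div_mul_div_cancel₀ hx2.ne'
  neg_mem' := by
    intro t ht
    show Tendsto (fun x => f (Real.exp (-t) * x) / f x) atTop (𝓝 (Real.exp (-t)))
    have hm : Tendsto (fun x : ℝ => Real.exp (-t) * x) atTop atTop :=
      tendsto_id.const_mul_atTop (Real.exp_pos _)
    have h1 : Tendsto (fun x => f (Real.exp t * (Real.exp (-t) * x)) / f (Real.exp (-t) * x))
        atTop (𝓝 (Real.exp t)) := Tendsto.comp ht hm
    have h2 := h1.inv₀ (Real.exp_pos t).ne'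
    rw [← Real.exp_neg] at h2
    refine h2.congr' ?_
    filter_upwards [hf, hm.eventually hf] with x hx hx2
    have e : Real.exp t * (Real.exp (-t) * x) = x := by
      rw [← mul_assoc, ← Real.exp_add, add_neg_cancel, Real.exp_zero, one_mul]
    rw [e, inv_div]

/-- two multiplicatively independent values give all values. -/
theorem all_of_two (f : ℝ → ℝ) (hmono : Monotone f) (hf : ∀ᶠ x in atTop, 0 < f x)
    (a b : ℝ) (ha : 1 < a) (hb : 1 < b) (hab : Irrational (Real.log a / Real.log b))
    (h1 : Tendsto (fun x => f (a * x) / f x) atTop (𝓝 a))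
    (h2 : Tendsto (fun x => f (b * x) / f x) atTop (𝓝 b)) :
    ∀ c : ℝ, 0 < c → Tendsto (fun x => f (c * x) / f x) atTop (𝓝 c) := by
  intro c hc
  have hdense : Dense (grp f hf : Set ℝ) := by
    have h3 := dense_addSubgroupClosure_pair_iff.2 hab
    refine h3.mono ?_
    have h4 : AddSubgroup.closure {Real.log a, Real.log b} ≤ grp f hf := by
      rw [AddSubgroup.closure_le]
      intro x hx
      rcases hx with rfl | rfl
      · show Tendsto (fun x => f (Real.exp (Real.log a) * x) / f x) atTop
          (𝓝 (Real.exp (Real.log a)))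
        rwa [Real.exp_log (by linarith)]
      · show Tendsto (fun x => f (Real.exp (Real.log b) * x) / f x) atTop
          (𝓝 (Real.exp (Real.log b)))
        rwa [Real.exp_log (by linarith)]
    exact h4
  rw [tendsto_order]
  constructor
  · intro a' ha'
    set m := (max a' (c / 2) + c) / 2 with hm
    have hm1 : max a' (c / 2) < c := max_lt ha' (by linarith)
    have hm2 : a' ≤ max a' (c / 2) := le_max_left _ _
    have hm3 : c / 2 ≤ max a' (c / 2) := le_max_right _ _
    have hmc : m < c := by linarith
    have ham : a' < m := by linarith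
    have hm0 : 0 < m := by linarith
    have hopen : IsOpen ({s : ℝ | a' < Real.exp s} ∩ {s : ℝ | Real.exp s < c}) :=
      (isOpen_lt continuous_const Real.continuous_exp).inter
        (isOpen_lt Real.continuous_exp continuous_const)
    obtain ⟨s, hs, hsS⟩ := hdense.exists_mem_open hopen
      ⟨Real.log m, by
        constructor
        · show a' < Real.exp (Real.log m)
          rwa [Real.exp_log hm0]
        · show Real.exp (Real.log m) < c
          rwa [Real.exp_log hm0]⟩
    have hsT : Tendsto (fun x => f (Real.exp s * x) / f x) atTop (𝓝 (Real.exp s)) := hs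
    filter_upwards [(tendsto_order.1 hsT).1 a' hsS.1, hf, eventually_gt_atTop 0] with x hx hfx hx0
    refine lt_of_lt_of_le hx (div_le_div_of_nonneg_right (hmono ?_) hfx.le)
    exact mul_le_mul_of_nonneg_right (le_of_lt hsS.2) hx0.le
  · intro a' ha'
    set m := (a' + c) / 2 with hm
    have hmc : c < m := by linarith
    have ham : m < a' := by linarith
    have hm0 : 0 < m := by linarith
    have hopen : IsOpen ({s : ℝ | Real.exp s < a'} ∩ {s : ℝ | c < Real.exp s}) :=
      (isOpen_lt Real.continuous_exp continuous_const).inter
        (isOpen_lt continuous_const Real.continuous_exp)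
    obtain ⟨s, hs, hsS⟩ := hdense.exists_mem_open hopen
      ⟨Real.log m, by
        constructor
        · show Real.exp (Real.log m) < a'
          rwa [Real.exp_log hm0]
        · show c < Real.exp (Real.log m)
          rwa [Real.exp_log hm0]⟩
    have hsT : Tendsto (fun x => f (Real.exp s * x) / f x) atTop (𝓝 (Real.exp s)) := hs
    filter_upwards [(tendsto_order.1 hsT).2 a' hsS.1, hf, eventually_gt_atTop 0] with x hx hfx hx0
    refine lt_of_le_of_lt (div_le_div_of_nonneg_right (hmono ?_) hfx.le) hx
    exact mul_le_mul_of_nonneg_right (le_of_lt hsS.2) hx0.le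

end Vale.P031
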